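import Vale.Agent.P088.R2.H558.G.TopL
import Vale.Agent.P088.R2.H404.INF.Alv

/-!
# P088, stage 3, EST': the payments of all pairs, the frame

The payment of a pair `k, j` is split: the region `0 < tinf` (`RowPayI`) and the region
`tinf ≤ 0` (`RowPayF`), both only where `χ_k ≠ 0` and `χ_j ≠ 0`. `Dead`: no common point in the
region `tinf ≤ 0`.
-/

open Set Filter MeasureTheory
open scoped ContDiff Topology Matrix

noncomputable section

namespace Vale.Agent.P088.R2.H844.E

open Vale.Agent.P088.LR Vale.Agent.P088.HY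
open Vale.Agent.P088.R2.H31.EP
open Vale.Agent.P088.R2.H551.E
open Vale.Agent.P088.R2.H455.E
open Vale.Agent.P088.R2.H558.G
open Vale.Agent.P088.R2.H867.EP (Zo zos mem_zos sd path Cut)

variable {n : ℕ}

/-- The payment in the region `tinf ≤ 0`. -/
def RowPayF (M co : Fam n) (k j : Zo) : Prop := EvC fun q => ∀ d : Pk n, PkOk q d →
  ∀ z, d.tinf q z ≤ 0 → d.ch q k z ≠ 0 → d.ch q j z ≠ 0 → ∀ a b : VV n → ℝ,
    34 * den d q (co q d k) a b z ≤ den d q (M q d j) a b z

/-- The payment in the region `0 < tinf`. -/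
def RowPayI (M co : Fam n) (k j : Zo) : Prop := EvC fun q => ∀ d : Pk n, PkOk q d →
  ∀ z, 0 < d.tinf q z → d.ch q k z ≠ 0 → d.ch q j z ≠ 0 → ∀ a b : VV n → ℝ,
    34 * den d q (co q d k) a b z ≤ den d q (M q d j) a b z

/-- The pair has no common point in the region `tinf ≤ 0`. -/
def Dead (n : ℕ) (k j : Zo) : Prop := EvC fun q => ∀ d : Pk n, PkOk q d →
  ∀ z, d.tinf q z ≤ 0 → d.ch q k z ≠ 0 → d.ch q j z ≠ 0 → False

theorem Dead.symm {k j : Zo} (h : Dead n k j) : Dead n j k :=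
  EvC.mono h fun _ h d ok z hz hj hk => h d ok z hz hk hj

theorem Dead.of {k j : Zo}
    (h : EvC fun q => ∀ d : Pk n, PkOk q d → ∀ z, d.ch q k z ≠ 0 → d.ch q j z ≠ 0 → False) :
    Dead n k j := EvC.mono h fun _ h d ok z _ hk hj => h d ok z hk hj

theorem Dead.pay {k j : Zo} (h : Dead n k j) (M co : Fam n) : RowPayF M co k j :=
  EvC.mono h fun _ h d ok z hz hk hj _ _ => (h d ok z hz hk hj).elim

theorem RowPayF.of {M co : Fam n} {k j : Zo} (h : RowPayW M co k j) : RowPayF M co k j :=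
  EvC.mono h fun _ h d ok z _ hk hj a b => h d ok z hk hj a b

theorem RowPayI.of {M co : Fam n} {k j : Zo} (h : RowPayW M co k j) : RowPayI M co k j :=
  EvC.mono h fun _ h d ok z _ hk hj a b => h d ok z hk hj a b

theorem RowPayW.split {M co : Fam n} {k j : Zo} (h : RowPayF M co k j) (h' : RowPayI M co k j) :
    RowPayW M co k j := by
  refine EvC.mono (EvC.and h h') ?_
  rintro q ⟨h, h'⟩ d ok z hk hj a b
  rcases le_or_gt (d.tinf q z) 0 with h0 | h0
  · exact h d ok z h0 hk hj a b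
  · exact h' d ok z h0 hk hj a b

/-- The leaves of the zone at infinity are dead in the region `tinf ≤ 0`. -/
theorem dead_inf {k : Zo} (hk : sd k .inf = true) (j : Zo) : Dead n k j :=
  EvC.of fun q d _ z hz h _ => by
    have h1 := (H404.INF.alive_inf h).1 hk
    rw [← H404.INF.tinf_eq] at h1
    exact absurd hz (not_le.2 h1)

/-! ## With the letters and the small parameter -/

/-- The payment where both cut-offs are not zero, region `tinf ≤ 0`, for all small `e`. -/
def PayF (L : Lc n) (k j : Zo) : Prop := ∃ th : Cst → ℝ, SmE th ∧ ∀ e : Cst → ℝ, SmE e →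
  (∀ q, e q ≤ th q) → RowPayF (Mz L) (coz L e) k j

/-- The same, region `0 < tinf`. -/
def PayI (L : Lc n) (k j : Zo) : Prop := ∃ th : Cst → ℝ, SmE th ∧ ∀ e : Cst → ℝ, SmE e →
  (∀ q, e q ≤ th q) → RowPayI (Mz L) (coz L e) k j

theorem PayF.dead {k j : Zo} (h : Dead n k j) (L : Lc n) : PayF L k j :=
  ⟨fun _ => 1, SmE.one, fun _ _ _ => h.pay _ _⟩

theorem PayF.of {L : Lc n} {k j : Zo} (h : PayEW L k j) : PayF L k j :=
  let ⟨th, h1, h2⟩ := h
  ⟨th, h1, fun e he hl => RowPayF.of (h2 e he hl)⟩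

theorem PayI.of {L : Lc n} {k j : Zo} (h : PayEW L k j) : PayI L k j :=
  let ⟨th, h1, h2⟩ := h
  ⟨th, h1, fun e he hl => RowPayI.of (h2 e he hl)⟩

theorem payEW_of {L : Lc n} {k j : Zo} (h : PayE L k j) : PayEW L k j :=
  let ⟨th, h1, h2⟩ := h
  ⟨th, h1, fun e he hl => RowPayW.of (h2 e he hl)⟩

theorem PayF.ofE {L : Lc n} {k j : Zo} (h : PayE L k j) : PayF L k j := PayF.of (payEW_of h)

/-- A pair which does not need the small parameter. -/
theorem PayF.all {L : Lc n} {k j : Zo} (h : ∀ e, SmE e → RowPayF (Mz L) (coz L e) k j) :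
    PayF L k j := ⟨fun _ => 1, SmE.one, fun e he _ => h e he⟩

theorem PayI.all {L : Lc n} {k j : Zo} (h : ∀ e, SmE e → RowPayI (Mz L) (coz L e) k j) :
    PayI L k j := ⟨fun _ => 1, SmE.one, fun e he _ => h e he⟩

theorem payEW_split {L : Lc n} {k j : Zo} (h : PayF L k j) (h' : PayI L k j) : PayEW L k j := by
  obtain ⟨t, h1, h2⟩ := h
  obtain ⟨t', h3, h4⟩ := h'
  exact ⟨fun q => min (t q) (t' q), h1.min h3, fun e he hl => RowPayW.split
    (h2 e he fun q => (hl q).trans (min_le_left _ _))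
    (h4 e he fun q => (hl q).trans (min_le_right _ _))⟩

end Vale.Agent.P088.R2.H844.E
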