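import Vale.Agent.P088.R2.H844.E.Reg

/-!
# P088, stage 3, EST': the payments of all pairs

The table `al` of the pairs of leaves which can have common points in the region `tinf ≤ 0`, and
the assembly of all payments.
-/

open Set Filter MeasureTheory
open scoped ContDiff Topology Matrix

noncomputable section

namespace Vale.Agent.P088.R2.H844.E

open Vale.Agent.P088.LR Vale.Agent.P088.HY
open Vale.Agent.P088.R2.H31.EP
open Vale.Agent.P088.R2.H551.E
open Vale.Agent.P088.R2.H455.E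
open Vale.Agent.P088.R2.H558.G
open Vale.Agent.P088.R2.H867.EP (Zo zos mem_zos sd path Cut)

variable {n : ℕ}

/-- The unordered pairs which can have common points, `tinf ≤ 0`. -/
def alS : List (Zo × Zo) :=
  [(.RSn, .RSn), (.RSn, .RSf), (.RSf, .RSf), (.RSn, .z0), (.RSn, .A1), (.RSn, .A2), (.RSn, .Af),
   (.RSf, .Af),
   (.z0, .z0), (.z0, .zI), (.z0, .z2a),
   (.zI, .zI), (.zI, .z2a), (.zI, .z2b), (.zI, .zB), (.z2a, .z2a), (.z2a, .z2b), (.z2a, .zB),
   (.z2b, .z2b), (.z2b, .zB), (.zB, .zB),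
   (.z0, .A1), (.z2a, .A1), (.z2b, .A1), (.zI, .A1), (.zI, .T1), (.zI, .T2),
   (.T1, .T1), (.T2, .T2), (.A1, .A1), (.T1, .A1), (.T2, .A1),
   (.T1, .P1), (.T2, .P2), (.A1, .P1), (.A1, .P2), (.A1, .A2), (.P1, .P1), (.P2, .P2),
   (.P1, .A2), (.P2, .A2), (.A2, .A2), (.A2, .Af), (.Af, .Af)]

/-- The unordered pairs without common points, `tinf ≤ 0`. -/
def deS : List (Zo × Zo) :=
  [(.z0, .zB), (.z0, .z2b),
   (.RSf, .z0), (.RSf, .zI), (.RSf, .z2a), (.RSf, .z2b), (.RSf, .zB),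
   (.RSf, .T1), (.RSf, .T2), (.RSf, .A1), (.RSf, .P1), (.RSf, .P2), (.RSf, .A2),
   (.RSn, .zI), (.RSn, .z2a), (.RSn, .z2b), (.RSn, .zB), (.RSn, .T1), (.RSn, .T2),
   (.RSn, .P1), (.RSn, .P2),
   (.z0, .P1), (.zI, .P1), (.z2a, .P1), (.z2b, .P1), (.zB, .P1),
   (.z0, .P2), (.zI, .P2), (.z2a, .P2), (.z2b, .P2), (.zB, .P2),
   (.z0, .A2), (.zI, .A2), (.z2a, .A2), (.z2b, .A2), (.zB, .A2),
   (.z0, .Af), (.zI, .Af), (.z2a, .Af), (.z2b, .Af), (.zB, .Af),
   (.zB, .T1), (.zB, .T2), (.zB, .A1),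
   (.z0, .T1), (.z0, .T2), (.z2a, .T1), (.z2a, .T2), (.z2b, .T1), (.z2b, .T2),
   (.T1, .T2), (.P1, .P2), (.T1, .P2), (.T2, .P1), (.T1, .A2), (.T2, .A2),
   (.T1, .Af), (.T2, .Af), (.A1, .Af), (.P1, .Af), (.P2, .Af)]

/-- Every pair is alive, dead, or has a leaf at infinity. -/
theorem cases_pair (k j : Zo) : (sd k .inf = true ∨ sd j .inf = true) ∨
    ((k, j) ∈ alS ∨ (j, k) ∈ alS) ∨ ((k, j) ∈ deS ∨ (j, k) ∈ deS) := by
  cases k <;> cases j <;> decide

/-- **The payments of the region `tinf ≤ 0`** from the alive and the dead pairs. -/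
theorem payF_all {L : Lc n}
    (hA : ∀ p ∈ alS, PayF L p.1 p.2 ∧ PayF L p.2 p.1)
    (hD : ∀ p ∈ deS, Dead n p.1 p.2) (k j : Zo) : PayF L k j := by
  rcases cases_pair k j with (h | h) | (h | h) | h | h
  · exact PayF.dead (dead_inf h j) L
  · exact PayF.dead (dead_inf h k).symm L
  · exact (hA _ h).1
  · exact (hA _ h).2
  · exact PayF.dead (hD _ h) L
  · exact PayF.dead (hD _ h).symm L

/-- The leaves whose costs do not vanish off the support of the cut-off. -/
def big : Zo → Bool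
  | .T1 => true
  | .T2 => true
  | .zB => true
  | _ => false

/-- The same for the costs of the other leaves. -/
theorem payF_all' {L : Lc n}
    (hA : ∀ p ∈ alS, (big p.1 = false → PayF L p.1 p.2) ∧ (big p.2 = false → PayF L p.2 p.1))
    (hD : ∀ p ∈ deS, Dead n p.1 p.2) (k j : Zo) (h1 : big k = false) : PayF L k j := by
  rcases cases_pair k j with (h | h) | (h | h) | h | h
  · exact PayF.dead (dead_inf h j) L
  · exact PayF.dead (dead_inf h k).symm L
  · exact (hA _ h).1 h1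
  · exact (hA _ h).2 h1
  · exact PayF.dead (hD _ h) L
  · exact PayF.dead (hD _ h).symm L

/-- **All payments.** `T1`, `T2`, `zB`: the costs do not vanish off the cut-off, the payments are
the literal ones; all other leaves: only where both cut-offs are not zero. -/
theorem payAll {L : Lc n} {κ₀ ζ₀ : Cst → ℝ} (hN : RowNn (Mz L) κ₀ ζ₀)
    (hO : ∀ k, big k = false → OffE L k)
    (hI : ∀ k j, big k = false → PayI L k j)
    (hA : ∀ p ∈ alS, (big p.1 = false → PayF L p.1 p.2) ∧ (big p.2 = false → PayF L p.2 p.1))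
    (hD : ∀ p ∈ deS, Dead n p.1 p.2)
    (hB : ∀ k j, big k = true → PayE L k j) (k j : Zo) : PayEG L k j := by
  rcases e : big k with _ | _
  · exact PayEG.ofW hN (hO k e) (payEW_split (payF_all' hA hD k j e) (hI k j e))
  · exact PayEG.of (hB k j e)

end Vale.Agent.P088.R2.H844.E
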