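import Vale.Agent.P088.R2.H650.E.Off
import Vale.Agent.P088.R2.H168.INF.Spec2
import Vale.Agent.P088.R2.H660.P.Rows

/-!
# P088, stage 3, EST': row Off of the passes (`omP`) and of the leaf iH
-/

open Set Filter MeasureTheory
open scoped ContDiff Topology Matrix

noncomputable section

namespace Vale.Agent.P088.R2.H844.E

open Vale.Agent.P088.LR Vale.Agent.P088.HY
open Vale.Agent.P088.R2.H31.EP
open Vale.Agent.P088.R2.H551.E
open Vale.Agent.P088.R2.H961.GW
open Vale.Agent.P088.R2.H455.E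
open Vale.Agent.P088.R2.H558.G
open Vale.Agent.P088.R2.H650.E
open Vale.Agent.P088.R2.H867.EP (Zo zos mem_zos)

section gen

variable {E ι : Type*} [NormedAddCommGroup E] [NormedSpace ℝ E] {χ : E → ℝ} {z : E}

theorem DD0 (σ : Sl E ι) (hz : z ∉ tsupport χ) (i j : ι) : σ.D i (σ.D j χ) z = 0 := by
  have h : σ.D j χ =ᶠ[𝓝 z] fun _ => (0 : ℝ) := by
    filter_upwards [(isClosed_tsupport χ).isOpen_compl.mem_nhds hz] with w hw using D0 σ hw j
  rw [D_congr_nhds σ h i, D_const]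

variable [Fintype ι]

theorem L0 (σ : Sl E ι) (hz : z ∉ tsupport χ) : σ.Λ χ z = 0 := by
  unfold Sl.Λ
  refine Finset.sum_eq_zero fun i _ => Finset.sum_eq_zero fun j _ => ?_
  rw [DD0 σ hz, D0 σ hz]
  ring

theorem kH0 (σ : Sl E ι) (W lam : E → ℝ) (hz : z ∉ tsupport χ) :
    H168.INF.kH σ W χ lam z = 0 := by
  have h1 := D0 σ hz
  have h3 := fun f => G0l σ hz f
  simp [H168.INF.kH, H168.INF.HH, h1, h3]

end gen

variable {n : ℕ}

theorem omP0 (d : Pk n) {χ : VV n → ℝ} {z : VV n} (hz : z ∉ tsupport χ) :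
    H660.P.omP d χ z = 0 := by
  unfold H660.P.omP H660.P.dD
  simp [D0 d.sx hz, D0 d.sy hz, L0 d.sx hz, L0 d.sy hz]

/-- **Row Off of the passes.** -/
theorem offE_P (L : Lc n) (h : ∀ k q d, L.om k q d = H660.P.omP d (d.ch q k)) {k : Zo}
    (hk : k = .P1 ∨ k = .P2) : OffE L k := by
  rcases hk with rfl | rfl
  · exact offE_P1 L (EvC.of fun q d _ z hz => by rw [h]; exact omP0 d hz)
  · exact offE_P2 L (EvC.of fun q d _ z hz => by rw [h]; exact omP0 d hz)

/-- **Row Off of the leaf iH.** -/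
theorem offE_iH (L : Lc n) (h : ∀ q d, L.FC .iH q d = H168.INF.CiH (d.ch q .iH) q d) :
    OffE L .iH :=
  offE_F L trivial (EvC.of fun q d _ z hz => by
    rw [h]
    constructor
    · rfl
    · rfl
    · rfl
    · rfl
    · exact kH0 d.sx (d.W q) _ hz
    · exact kH0 d.sy (d.W q) _ hz
    · rfl
    · rfl)

end Vale.Agent.P088.R2.H844.E
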