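import Vale.Agent.P088.R2.H844.E.PayAll
import Vale.Agent.P088.R2.H844.E.OffP
import Vale.Agent.P088.R2.H552.E.DeadL
import Vale.Agent.P088.R2.H551.RS.All
import Vale.Agent.P088.R2.H972.EP.Pc
import Vale.Agent.P088.R2.H850.E.Plug
import Vale.Agent.P088.R2.H341.E.PzI0
import Vale.Agent.P088.R2.H165.NF.D
import Vale.Agent.P088.R2.H294.E.NA2k
import Vale.Agent.P088.R2.H446.E.TzI
import Vale.Agent.P088.R2.H509.E.PA
import Vale.Agent.P088.R2.H650.E.Far
import Vale.Agent.P088.R2.H650.E.Off2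
import Vale.Agent.P088.R2.H650.E.PayP
import Vale.Agent.P088.R2.H820.E.PT1
import Vale.Agent.P088.R2.H920.E.Du
import Vale.Agent.P088.R2.H871.E.PaI
import Vale.Agent.P088.R2.H871.E.Rs
import Vale.Agent.P088.R2.H206.E.P0
import Vale.Agent.P088.R2.H679.E.Fin
import Vale.Agent.P088.R2.H271.E.Pay0K
import Vale.Agent.P088.R2.H380.E.PiS
import Vale.Agent.P088.R2.H406.INF.SS
import Vale.Agent.P088.R2.H997.EP.NNf
import Vale.Agent.P088.R2.H591.X.F0

/-!
# P088, stage 3, EST': the payments of all pairs, from the landed rows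

`pay0`: all payments, for the literal letters `F0`.
-/

open Set Filter MeasureTheory
open scoped ContDiff Topology Matrix

noncomputable section

namespace Vale.Agent.P088.R2.H844.E

open Vale.Agent.P088.LR Vale.Agent.P088.HY
open Vale.Agent.P088.R2.H31.EP
open Vale.Agent.P088.R2.H551.E
open Vale.Agent.P088.R2.H455.E
open Vale.Agent.P088.R2.H558.G
open Vale.Agent.P088.R2.H591.X (F0)
open Vale.Agent.P088.R2.H551.RS (LRS)
open Vale.Agent.P088.R2.H972.EP (N2 Nz)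
open Vale.Agent.P088.R2.H867.EP (Zo zos mem_zos sd path Cut Near Off RS Inf)
open Vale.Agent.P088.R2.H871.E (PbI CbI AlI OutH outH payI_all rowFn pbI_RSn pbI_RSf cbI_RSn cbI_RSf)

variable {n : ℕ}

/-! ## The classes of the alive ordered pairs -/

/-- helper551 -/
def rsB (k j : Zo) : Bool := ([.RSn, .RSf].contains k || [.RSn, .RSf].contains j) &&
  !([.iH, .iF, .iS].contains k) && !([.iH, .iF, .iS].contains j)

/-- helper972 -/
def nzB (k j : Zo) : Bool := [.zI, .z2a, .z2b].contains k && [.zI, .z2a, .zB, .z2b].contains j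

/-- helper650 -/
def aaB (k j : Zo) : Bool := [.A1, .A2, .Af].contains k && [.A1, .A2, .Af].contains j

/-- The pairs with the passes. -/
def pS : List (Zo × Zo) :=
  [(.P1, .T1), (.P2, .T2), (.A1, .P1), (.P1, .A1), (.A1, .P2), (.P2, .A1), (.P1, .P1),
   (.P2, .P2), (.P1, .A2), (.A2, .P1), (.P2, .A2), (.A2, .P2)]

/-- The other pairs. -/
def xS : List (Zo × Zo) :=
  [(.z0, .z0), (.z0, .z2a), (.z2a, .z0), (.z0, .zI), (.zI, .z0), (.z0, .A1), (.A1, .z0),
   (.z2a, .A1), (.A1, .z2a), (.z2b, .A1), (.A1, .z2b), (.zI, .A1), (.A1, .zI), (.zI, .T1),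
   (.zI, .T2), (.A1, .T1), (.A1, .T2)]

theorem classes (k j : Zo) : ((k, j) ∈ alS ∨ (j, k) ∈ alS) → big k = false →
    rsB k j = true ∨ nzB k j = true ∨ aaB k j = true ∨ (k, j) ∈ pS ∨ (k, j) ∈ xS := by
  cases k <;> cases j <;> decide

theorem ninf_of {k : Zo} (h : (!([Zo.iH, .iF, .iS].contains k)) = true) : ¬Inf k := by
  cases k <;> first | exact absurd h (by decide) | (unfold Inf; simp)

theorem rs_of {k : Zo} (h : [Zo.RSn, .RSf].contains k = true) : RS k := by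
  cases k <;> first | exact absurd h (by decide) | (unfold RS; simp)

theorem nz_of {k : Zo} (h : [Zo.zI, .z2a, .zB, .z2b].contains k = true) : Nz k := by
  cases k <;> first | exact absurd h (by decide) | (unfold Nz; simp)

theorem n2_of {k : Zo} (h : [Zo.zI, .z2a, .z2b].contains k = true) : k = .zI ∨ N2 k := by
  cases k <;> first | exact absurd h (by decide) | (unfold N2; simp)

theorem la_of {k : Zo} (h : [Zo.A1, .A2, .Af].contains k = true) : H650.E.LA k := by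
  cases k <;> first | exact absurd h (by decide) | (unfold H650.E.LA; simp)

/-! ## The literal letters -/

section lit

variable {L : Lc n} (h : Lit (F0 n) L)
include h

theorem lit_kz : L.kz = H942.Pk.kz := h.kz

theorem lit_RS : LRS L where
  Mn q d := by rw [h.FM]; rfl
  Cn q d := by rw [h.FC]; rfl
  Mf q d := by rw [h.FM]; rfl
  Cf q d := by rw [h.FC]; rfl

theorem lit_off (k : Zo) (hb : big k = false) : OffE L k := by
  cases k
  case z0 => exact H650.E.offE_z0 L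
  case zI => exact H650.E.offE_zI L
  case z2a => exact H650.E.offE_z2a L
  case z2b => exact H650.E.offE_z2b L
  case A1 => exact H650.E.offE_A1 L
  case A2 => exact H650.E.offE_A2 L
  case Af => exact H650.E.offE_Af L
  case P1 => exact offE_P L (fun k q d => by rw [h.om]; rfl) (Or.inl rfl)
  case P2 => exact offE_P L (fun k q d => by rw [h.om]; rfl) (Or.inr rfl)
  case iH => exact offE_iH L fun q d => by rw [h.FC]; rfl
  case iF => exact H650.E.offE_iF L fun q d => by rw [h.FC]; rfl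
  case iS => exact H650.E.offE_FS L (k := .iS) trivial fun q d => by rw [h.FC]; rfl
  case RSn =>
    exact H650.E.offE_FA L (k := .RSn) trivial (η := fun _ => 1 / 200)
      (m := fun q d => H312.S.mRS q d) fun q d => by rw [h.FC]; rfl
  case RSf =>
    exact H650.E.offE_FA L (k := .RSf) trivial (η := fun _ => 1 / 200)
      (m := fun q d => H53.RS.mRSf d q) fun q d => by rw [h.FC]; rfl
  all_goals exact absurd hb (by decide)

end lit

theorem lfN0 (n : ℕ) : H997.EP.LfN (F0 n) where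
  kz := rfl
  GP := rfl
  RSn := rfl
  RSf := rfl
  iH := rfl
  iF := rfl
  iS := rfl

section

variable (hn : 3 ≤ n) {L : Lc n} (hL : L.Ok) (lt : Lit (F0 n) L)
include hn hL lt

/-- **The region `0 < tinf`.** -/
theorem payI0 (k j : Zo) : PayI L k j := by
  have hn1 : 1 ≤ n := by omega
  have hP : ∀ k, AlI k → PbI L k := by
    rintro k ((rfl | rfl | rfl) | (rfl | rfl) | rfl | rfl | rfl | rfl)
    · exact H679.E.pbI_iH fun q d => by rw [lt.FM]; rfl
    · exact H679.E.pbI_iF' hn1 fun q d => by rw [lt.FM]; rfl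
    · exact H380.E.pbI_iS hn1 (by rw [lt.FM]; rfl)
    · exact pbI_RSn hn1 (lit_RS lt)
    · exact pbI_RSf hn1 (lit_RS lt)
    · exact H206.E.pb0 hn1 hL
    · exact H206.E.pbA (rowFn n) hL (Or.inl rfl)
    · exact H206.E.pbA (rowFn n) hL (Or.inr (Or.inl rfl))
    · exact H206.E.pbA (rowFn n) hL (Or.inr (Or.inr rfl))
  have hC : ∀ k, AlI k → CbI L k := by
    rintro k ((rfl | rfl | rfl) | (rfl | rfl) | rfl | rfl | rfl | rfl)
    · exact H679.E.cbI_iH' hn1 (H406.INF.rowSS hn1) fun q d => by rw [lt.FC]; rfl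
    · exact H679.E.cbI_iF' hn1 fun q d => by rw [lt.FC]; rfl
    · exact H380.E.cbI_iS hn1 (by rw [lt.FC]; rfl)
    · exact cbI_RSn hn1 (lit_RS lt)
    · exact cbI_RSf hn1 (lit_RS lt)
    · exact H206.E.cb0 hn1 hL
    · exact H206.E.cbA hn1 (rowFn n) hL (Or.inl rfl)
    · exact H206.E.cbA hn1 (rowFn n) hL (Or.inr (Or.inl rfl))
    · exact H206.E.cbA hn1 (rowFn n) hL (Or.inr (Or.inr rfl))
  exact payI_all hP hC (outH (fun q d => by rw [lt.FM]; rfl) (fun q d => by rw [lt.FC]; rfl)) k j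

theorem payX {k j : Zo} (hx : (k, j) ∈ xS) : PayF L k j := by
  have hn1 : 1 ≤ n := by omega
  have hk := lit_kz lt
  have hD : H165.NF.RowD n := H165.NF.rowD hn1
  simp only [xS, List.mem_cons, Prod.mk.injEq, List.not_mem_nil, or_false] at hx
  rcases hx with ⟨rfl, rfl⟩ | ⟨rfl, rfl⟩ | ⟨rfl, rfl⟩ | ⟨rfl, rfl⟩ | ⟨rfl, rfl⟩ | ⟨rfl, rfl⟩ |
    ⟨rfl, rfl⟩ | ⟨rfl, rfl⟩ | ⟨rfl, rfl⟩ | ⟨rfl, rfl⟩ | ⟨rfl, rfl⟩ | ⟨rfl, rfl⟩ | ⟨rfl, rfl⟩ |
    ⟨rfl, rfl⟩ | ⟨rfl, rfl⟩ | ⟨rfl, rfl⟩ | ⟨rfl, rfl⟩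
  · exact PayF.of (H271.E.pay_00 hn1 hL)
  · exact PayF.of (H271.E.pay_0a' hn1 hL hk)
  · exact PayF.of (H271.E.pay_a0' hn1 hL hk)
  · exact PayF.of (H341.PzI.z0_zI hn hL)
  · exact PayF.of (H341.PzI.zI_z0 hn hL)
  · exact PayF.of (H920.E.payEW_z0_A1 hL)
  · exact H920.E.pay_A1_z0 hn1 hL
  · exact PayF.of (H294.E.pay_z2_A1' hn1 hL hk (Or.inl rfl))
  · exact H294.E.pay_A1_z2' hn1 hL hk hD (Or.inl rfl)
  · exact PayF.of (H294.E.pay_z2_A1' hn1 hL hk (Or.inr rfl))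
  · exact H294.E.pay_A1_z2' hn1 hL hk hD (Or.inr rfl)
  · exact PayF.of (H165.NF.payEW_zI_A1 hL)
  · exact H165.NF.payF_A1_zI hn1 hL
  · exact PayF.of (PayEW.all fun e _ => H446.E.pay_I_T1 hL e)
  · exact PayF.of (PayEW.all fun e _ => H446.E.pay_I_T2 hL e)
  · exact PayF.ofE (H509.PA.payA1T1 hn1 hL)
  · exact PayF.ofE (H509.PA.payA1T2 hn1 hL)

theorem payP {k j : Zo} (hx : (k, j) ∈ pS) : PayF L k j := by
  have hn1 : 1 ≤ n := by omega
  have hG : L.GP = H747.A.GG := by funext q d; rw [lt.GP]; rfl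
  have hom : L.om = fun k q (d : Pk n) => H660.P.omP d (d.ch q k) := by
    funext k q d
    rw [lt.om]
    rfl
  obtain ⟨h1, h2, h3, h4, h5, h6⟩ := H650.E.payF_P hn1 hL hG hom
  simp only [pS, List.mem_cons, Prod.mk.injEq, List.not_mem_nil, or_false] at hx
  rcases hx with ⟨rfl, rfl⟩ | ⟨rfl, rfl⟩ | ⟨rfl, rfl⟩ | ⟨rfl, rfl⟩ | ⟨rfl, rfl⟩ | ⟨rfl, rfl⟩ |
    ⟨rfl, rfl⟩ | ⟨rfl, rfl⟩ | ⟨rfl, rfl⟩ | ⟨rfl, rfl⟩ | ⟨rfl, rfl⟩ | ⟨rfl, rfl⟩
  · exact h5
  · exact h6
  · exact h1 _ (Or.inl rfl) _ (Or.inl rfl)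
  · exact h2 _ (Or.inl rfl) _ (Or.inl rfl)
  · exact h1 _ (Or.inl rfl) _ (Or.inr rfl)
  · exact h2 _ (Or.inr rfl) _ (Or.inl rfl)
  · exact h3
  · exact h4
  · exact h2 _ (Or.inl rfl) _ (Or.inr rfl)
  · exact h1 _ (Or.inr rfl) _ (Or.inl rfl)
  · exact h2 _ (Or.inr rfl) _ (Or.inr rfl)
  · exact h1 _ (Or.inr rfl) _ (Or.inr rfl)

theorem payC {k j : Zo} (hkj : (k, j) ∈ alS ∨ (j, k) ∈ alS) (hb : big k = false) :
    PayF L k j := by
  have hn1 : 1 ≤ n := by omega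
  rcases classes k j hkj hb with c | c | c | c | c
  · unfold rsB at c
    rw [Bool.and_eq_true, Bool.and_eq_true, Bool.or_eq_true] at c
    obtain ⟨⟨c1, c2⟩, c3⟩ := c
    exact PayF.of (H551.RS.payEW_RS hn1 hL (lit_RS lt) (ninf_of c2) (ninf_of c3)
      (c1.imp rs_of rs_of))
  · unfold nzB at c
    rw [Bool.and_eq_true] at c
    exact PayF.of (H972.EP.pay_nn hn1 hL (lit_kz lt) (n2_of c.1) (nz_of c.2))
  · unfold aaB at c
    rw [Bool.and_eq_true] at c
    exact H650.E.payF_AA hn1 hL (la_of c.1) (la_of c.2)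
  · exact payP hn hL lt c
  · exact payX hn hL lt c

/-- **All payments.** -/
theorem pay0 (k j : Zo) : PayEG L k j := by
  have hn1 : 1 ≤ n := by omega
  have hG : L.GP = H747.A.GG := by funext q d; rw [lt.GP]; rfl
  obtain ⟨κ₀, ζ₀, -, -, hN⟩ := H997.EP.rest_nn hn1 (lfN0 n) L hL lt
  refine payAll hN (lit_off lt) (fun k j _ => payI0 hn hL lt k j)
    (fun p hp => ⟨fun hb => ?_, fun hb => ?_⟩) (H552.E.dead_deS n) (fun k j hb => ?_) k j
  · exact payC hn hL lt (Or.inl hp) hb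
  · exact payC hn hL lt (Or.inr hp) hb
  · have hB : k = .T1 ∨ k = .T2 ∨ k = .zB := by
      cases k <;> first | exact absurd hb (by decide) | simp
    rcases hB with rfl | rfl | rfl
    · exact H820.E.pay_T1 hL hG hN j
    · exact H820.E.pay_T2 hL hG hN j
    · obtain ⟨K, k1, k2, k3, k4⟩ := lt.ZB
      exact H850.E.payE_zB' hn1 hL (lit_kz lt) k2 k1 k3 k4 hN j

end

/-- **The field `pay` of `Rest (F0 n)`.** -/
theorem rest_pay (hn : 3 ≤ n) : ∀ L : Lc n, L.Ok → Lit (F0 n) L →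
    ∀ k j, PayEG L k j := fun _ hL lt => pay0 hn hL lt

end Vale.Agent.P088.R2.H844.E
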