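import Vale.Agent.P088.R2.H844.E.Reg
import Vale.Agent.P088.R2.H710.EP.GQ
import Vale.Agent.P088.R2.H509.EP.Side

/-!
# P088, stage 3, EST': the passes and the far leaf have no common points

`{P1, P2}` against `Af`.
-/

open Set Filter MeasureTheory
open scoped ContDiff Topology Matrix

noncomputable section

namespace Vale.Agent.P088.R2.H844.E

open Vale.Agent.P088.LR Vale.Agent.P088.HY
open Vale.Agent.P088.R2.H31.EP
open Vale.Agent.P088.R2.H710.GP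
open Vale.Agent.P088.R2.H475
open Vale.Agent.P088.R2.H404.INF
open Vale.Agent.P088.R2.H464.Cu (mid dif rq)
open Vale.Agent.P088.R2.H867.EP (Zo zos mem_zos sd path Cut Near Off RS Inf)

variable {n : ℕ}

/-! ## The radius -/

theorem exists_dl (e₁ : ℝ) (h : H509.Rad.Ok e₁ rp) : ∃ δ : ℝ, 0 < δ ∧ δ ≤ 1 / 10 ∧
    ∀ r, (1 - δ) * (3 / 2 * prP e₁ (1 / 4)) ≤ r → prL e₁ r ≤ 1 - e₁ / 8 := by
  have hp : 1 ≤ prP e₁ (1 / 4) := h.one_le (by norm_num)
  set r₀ := 3 / 2 * prP e₁ (1 / 4) with hr₀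
  have r0 : 0 < r₀ := by linarith
  have h1 : H509.Rad.Lr e₁ rp r₀ ≤ 1 - e₁ / 5 := h.beyond (by norm_num) (by norm_num) le_rfl
  have he := h.e0
  have hc : ContinuousAt (H509.Rad.Lr e₁ rp) r₀ := h.cont.continuousAt (Ioi_mem_nhds r0)
  have h2 : ∀ᶠ r in 𝓝 r₀, H509.Rad.Lr e₁ rp r < 1 - e₁ / 8 :=
    hc.eventually_lt continuousAt_const (by linarith)
  obtain ⟨s, s0, hs⟩ := Metric.eventually_nhds_iff.1 h2
  refine ⟨min (1 / 10) (s / (2 * r₀)), lt_min (by norm_num) (by positivity), min_le_left _ _,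
    fun r hr => ?_⟩
  set δ := min (1 / 10) (s / (2 * r₀)) with hδ
  have δ0 : 0 < δ := lt_min (by norm_num) (by positivity)
  have δ1 : δ ≤ 1 / 10 := min_le_left _ _
  have δ2 : δ * r₀ ≤ s / 2 := by
    have := min_le_right (1 / 10) (s / (2 * r₀))
    rw [← hδ, le_div_iff₀ (by positivity)] at this
    linarith
  have q0 : 0 < (1 - δ) * r₀ := mul_pos (by linarith) r0
  have h3 : H509.Rad.Lr e₁ rp ((1 - δ) * r₀) < 1 - e₁ / 8 := by
    refine hs ?_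
    rw [Real.dist_eq]
    have e : (1 - δ) * r₀ - r₀ = -(δ * r₀) := by ring
    rw [e, abs_neg, abs_of_pos (mul_pos δ0 r0)]
    linarith
  exact (h.pp.antitone_Lf q0 (lt_of_lt_of_le q0 hr) hr).trans h3.le

open Classical in
/-- The margin of the radius. -/
def dl' (e₁ : ℝ) : ℝ := if h : H509.Rad.Ok e₁ rp then (exists_dl e₁ h).choose else 1

theorem dl'_spec {e₁ : ℝ} (h : H509.Rad.Ok e₁ rp) : 0 < dl' e₁ ∧ dl' e₁ ≤ 1 / 10 ∧
    ∀ r, (1 - dl' e₁) * (3 / 2 * prP e₁ (1 / 4)) ≤ r → prL e₁ r ≤ 1 - e₁ / 8 := by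
  unfold dl'
  rw [dif_pos h]
  exact (exists_dl e₁ h).choose_spec

/-- The constants. -/
structure DPc (q : Cst) : Prop where
  g : GC q
  M : ∀ r, 0 < r → r ≤ 3 * q.p₁ → 2 * (prL q.e₁ r * prS q.e₁ (r ^ 2)) ≤ q.M₀

theorem evDPc : EvC DPc := by
  have c5 : EvC fun q => H509.Rad.Ok q.e₁ rp → ∀ r, 0 < r → r ≤ 3 * q.p₁ →
      2 * (prL q.e₁ r * prS q.e₁ (r ^ 2)) ≤ q.M₀ :=
    EvC.at_M₀ (fun q t => H509.Rad.Ok q.e₁ rp → ∀ r, 0 < r → r ≤ 3 * q.p₁ →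
      2 * (prL q.e₁ r * prS q.e₁ (r ^ 2)) ≤ t) fun q => by
      by_cases h : H509.Rad.Ok q.e₁ rp
      · obtain ⟨C, hC⟩ := LS_bdd q.e₁ h (3 * q.p₁)
        exact ev_top (2 * C) fun t ht _ r h0 h1 => by linarith [hC r h0 h1]
      · exact Eventually.of_forall fun _ h1 => absurd h1 h
  exact (evG.and c5).mono fun q h => ⟨h.1, h.2 h.1.rad⟩

section geo

variable {q : Cst} {d : Pk n} {z : VV n} {t : ℝ}

theorem u0_pos' (hq : GC q) (h : PkOk q d) (h0 : 0 < rr z)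
    (hM : 2 * (prL q.e₁ (rr z) * prS q.e₁ (rr z ^ 2)) ≤ q.M₀)
    (h2 : 9 / 10 * d.NG q z ≤ prL q.e₁ (rr z) * d.G0 q z) : 0 ≤ d.u0 z := by
  have hN := h.NG_ge hq.rad z
  have hM1 := hq.M1
  unfold Pk.G0 at h2
  rw [← rr_sq] at h2
  by_contra hc
  have he : Real.exp (d.u0 z) ≤ 1 := Real.exp_le_one_iff.2 (not_le.1 hc).le
  have hS : 0 < prS q.e₁ (rr z ^ 2) := hq.rad.pp.S_pos (by positivity)
  have hL : 0 < prL q.e₁ (rr z) := hq.rad.Lpos _
  have h3 : prL q.e₁ (rr z) * (Real.exp (d.u0 z) * prS q.e₁ (rr z ^ 2)) ≤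
      prL q.e₁ (rr z) * (1 * prS q.e₁ (rr z ^ 2)) :=
    mul_le_mul_of_nonneg_left (mul_le_mul_of_nonneg_right he hS.le) hL.le
  nlinarith

/-- A short gradient needs `L > 1 - e₁ / 8`. -/
theorem no_short (D : DPc q) (h : PkOk q d) (hn : NO q d z) (h0 : 0 < rr z)
    (h1 : rr z ≤ 3 * q.p₁) (hL : prL q.e₁ (rr z) ≤ 1 - q.e₁ / 8)
    (hx : en (gx d q z) ≤ 4 * q.rT * d.NG q z ∨ en (gy d q z) ≤ 4 * q.rT * d.NG q z) :
    False := by
  have hq := D.g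
  have hNG := NG_pos hq h z
  have hG := PkOk.G0_nonneg (d := d) hq.rad z
  have hN := h.N_pos hq.M1 (d.u0 z)
  have e1 : d.NG q z = deriv d.Φ (d.u0 z) + d.G0 q z := rfl
  have h2 := hq.rT1
  have h3 := hq.rT2
  have h4 := hq.σ1
  have h5 := hq.rT0
  have he0 := hq.rad.e0
  have he1 := hq.rad.e1
  have up : prL q.e₁ (rr z) * d.G0 q z ≤ (1 - q.e₁ / 8) * d.NG q z := by
    have a1 := mul_le_mul_of_nonneg_right hL hG
    have a2 : (1 - q.e₁ / 8) * d.G0 q z ≤ (1 - q.e₁ / 8) * d.NG q z :=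
      mul_le_mul_of_nonneg_left (by linarith) (by linarith)
    linarith
  rcases hx with hx | hx
  · have hg := gl_near hq.inf h hn.g1 hn.w1
    rw [gx_eq h hq.rad.e0] at hx
    have k1 := (en_lo (gl d.l z.1) (cq d q z • (z.1 - z.2)) hNG.le).trans hx
    rw [en_cq hq.rad h0] at k1
    have k3 := mul_le_mul_of_nonneg_left hg.1 hNG.le
    have hu : 0 ≤ d.u0 z := u0_pos' hq h h0 (D.M _ h0 h1) (by nlinarith)
    have hd := nd_of hq.inf h hn hu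
    have k4 := mul_le_mul_of_nonneg_left hd.g1 hNG.le
    nlinarith
  · have hg := gl_near hq.inf h hn.g2 hn.w2
    have e3 : gy d q z = d.NG q z • gl d.l z.2 + (-(cq d q z)) • (z.1 - z.2) := by
      rw [gy_eq h hq.rad.e0, neg_smul, sub_eq_add_neg]
    have e2 : en ((-(cq d q z)) • (z.1 - z.2)) = prL q.e₁ (rr z) * d.G0 q z := by
      rw [← en_cq hq.rad h0, en_sm, en_sm, abs_neg]
    rw [e3] at hx
    have k1 := (en_lo (gl d.l z.2) ((-(cq d q z)) • (z.1 - z.2)) hNG.le).trans hx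
    rw [e2] at k1
    have k3 := mul_le_mul_of_nonneg_left hg.1 hNG.le
    have hu : 0 ≤ d.u0 z := u0_pos' hq h h0 (D.M _ h0 h1) (by nlinarith)
    have hd := nd_of hq.inf h hn hu
    have k4 := mul_le_mul_of_nonneg_left hd.g2 hNG.le
    nlinarith

theorem no_P_Af (D : DPc q) (h : PkOk q d) (hP : (d.cp q).Ok)
    (m : 1 / 2 * qq z ≤ 2 * rq (gi d.s₁) z ∧ 2 * rq (gi d.s₁) z ≤ (1 + dl' q.e₁) * qq z)
    {k : Zo} (hk : k = .P1 ∨ k = .P2) (hkz : d.ch q k z ≠ 0) (hj : d.ch q .Af z ≠ 0) :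
    False := by
  have hG := D.g
  have hi : ¬Inf k := by rcases hk with rfl | rfl <;> (unfold Inf; decide)
  have ho : Off k := by rcases hk with rfl | rfl <;> (unfold Off; decide)
  have hf : k ≠ .Af := by rcases hk with rfl | rfl <;> decide
  have hn := sd_near hkz hi hG.inf.κ0 hG.inf.κ1 (lvG hG.inf h)
  obtain ⟨δ0, δ1, hδ⟩ := dl'_spec hG.rad
  obtain ⟨m1, m2⟩ := m
  have a1 : (3 / 2 * q.p₁) ^ 2 ≤ 2 * rq (gi d.s₁) z := sd_Af hj hP
  have a2 : 2 * rq (gi d.s₁) z ≤ (2 * q.p₁) ^ 2 := sd_nf hkz ho hf hP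
  have e := rr_sq z
  have hr := rr_nn z
  have hp := Cst.p₁_ge hG.rad
  have hp0 : 0 < q.p₁ := by linarith
  have b2 : rr z ≤ 3 * q.p₁ := by
    refine (sq_le_sq₀ hr (by positivity)).1 ?_
    rw [e]
    nlinarith
  have b1 : (1 - dl' q.e₁) * (3 / 2 * q.p₁) ≤ rr z := by
    refine (sq_le_sq₀ (mul_nonneg (by linarith) (by positivity)) hr).1 ?_
    rw [e, mul_pow]
    have c1 : (3 / 2 * q.p₁) ^ 2 ≤ (1 + dl' q.e₁) * qq z := a1.trans m2
    have c2 : (1 - dl' q.e₁) ^ 2 * (1 + dl' q.e₁) ≤ 1 := by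
      have : 0 ≤ dl' q.e₁ ^ 2 * (1 - dl' q.e₁) := mul_nonneg (sq_nonneg _) (by linarith)
      nlinarith
    have c3 := mul_le_mul_of_nonneg_left c1 (sq_nonneg (1 - dl' q.e₁))
    have c4 := mul_le_mul_of_nonneg_right c2 (qq_nonneg z)
    nlinarith
  have h0 : 0 < rr z := lt_of_lt_of_le (mul_pos (by linarith) (by positivity)) b1
  have hNG := NG_pos hG h z
  have hT := hG.rT0
  refine no_short D h hn h0 b2 (hδ _ b1) ?_
  rcases hk with rfl | rfl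
  · have h2 := sd_P1 hT hNG hkz
    rw [sq_gx] at h2
    exact Or.inl ((sq_le_sq₀ (en_nn _) (by positivity)).1 h2.le)
  · have h2 := sd_P2 hT hNG hkz
    rw [sq_gy] at h2
    exact Or.inr ((sq_le_sq₀ (en_nn _) (by positivity)).1 h2.le)

end geo

theorem dead_P_Af {k : Zo} (hk : k = .P1 ∨ k = .P2) : Dead n k .Af :=
  (((evDPc.and (EvC.cpOk n)).and (EvC.rq n)).and
    (EvC.metric n (fun q => dl' q.e₁) fun _ => rfl)).mono fun q h d ok z _ hkz hj => by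
      obtain ⟨⟨⟨D, hP⟩, hr⟩, hm⟩ := h
      have h1 := (hm (dl'_spec D.g.rad).1 d ok).2.2.2.2 z
      have h2 := ((hr d ok).2 z).2.1
      have h3 := (abs_le.1 h1).2
      exact no_P_Af D ok (hP d ok) ⟨h2, by linarith⟩ hk hkz hj

end Vale.Agent.P088.R2.H844.E
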