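import Vale.Agent.P088.R2.H844.E.Reg
import Vale.Agent.P088.R2.H710.EP.GQ
import Vale.Agent.P088.R2.H509.EP.Win
import Vale.Agent.P088.R2.H871.E.Lay

/-!
# P088, stage 3, EST': the tubes and the near leaves have no common points

`{z0, z2a, z2b, zB}` against `{T1, T2}`, and `zB` against `A1`.
-/

open Set Filter MeasureTheory
open scoped ContDiff Topology Matrix

noncomputable section

namespace Vale.Agent.P088.R2.H844.E

open Vale.Agent.P088.LR Vale.Agent.P088.HY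
open Vale.Agent.P088.R2.H31.EP
open Vale.Agent.P088.R2.H710.GP
open Vale.Agent.P088.R2.H404.INF (InfC lvG)
open Vale.Agent.P088.R2.H464.Cu (mid dif rq)
open Vale.Agent.P088.R2.H867.EP (Zo zos mem_zos sd path Cut Near Off RS Inf)

variable {n : ℕ}

/-! ## The ratio `Φ' / e^u` at neighbouring levels -/

section ratio

variable {q : Cst} {d : Pk n} {a b θ : ℝ}

/-- **The ratio changes by less than the factor `2`**, in the windows. -/
theorem ratio (h : PkOk q d) (w : WC q) (h0 : 0 ≤ d.l₀ q) (h1 : d.l₀ q ≤ 1 / 100 * q.R)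
    (ha : a ≤ 2 * d.l₀ q + 93 / 20 * q.R + 1) (hb : b ≤ 2 * d.l₀ q + 93 / 20 * q.R + 1)
    (hab : |a - b| ≤ 1 / 4) (t1 : Real.exp 2 * q.ν₁ ≤ θ) (t2 : Real.exp 2 * (2 * θ) ≤ q.nm)
    (hθ : deriv d.Φ a ≤ θ * Real.exp a) : deriv d.Φ b < 2 * θ * Real.exp b := by
  by_contra hc
  rw [not_lt] at hc
  have hν := w.ν₁
  have θ0 : 0 < θ := lt_of_lt_of_le (by positivity) t1
  -- the ratio
  have cont : Continuous fun v => deriv d.Φ v * Real.exp (-v) :=
    h.Φ's.continuous.mul (Real.continuous_exp.comp continuous_neg)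
  have e0 : ∀ v : ℝ, Real.exp v * Real.exp (-v) = 1 := fun v => by
    rw [← Real.exp_add]; simp
  have ra : deriv d.Φ a * Real.exp (-a) ≤ θ := by
    have := mul_le_mul_of_nonneg_right hθ (Real.exp_pos (-a)).le
    rwa [mul_assoc, e0, mul_one] at this
  have rb : 2 * θ ≤ deriv d.Φ b * Real.exp (-b) := by
    have := mul_le_mul_of_nonneg_right hc (Real.exp_pos (-b)).le
    rwa [mul_assoc, e0, mul_one] at this
  have hm : 2 * θ ∈ Icc (deriv d.Φ a * Real.exp (-a)) (deriv d.Φ b * Real.exp (-b)) :=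
    ⟨by linarith, rb⟩
  obtain ⟨v, hv, ev⟩ := intermediate_value_uIcc (f := fun v => deriv d.Φ v * Real.exp (-v))
    (a := a) (b := b) cont.continuousOn (Icc_subset_uIcc hm)
  simp only at ev
  have hva : |a - v| ≤ 1 / 4 := by
    have h2 := abs_sub_left_of_mem_uIcc hv
    rw [abs_sub_comm a v]
    exact h2.trans (by rwa [abs_sub_comm b a])
  have hv2 : v ≤ 2 * d.l₀ q + 93 / 20 * q.R + 1 := by
    rcases mem_uIcc.1 hv with h3 | h3
    · exact h3.2.trans hb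
    · exact h3.2.trans ha
  have ev' : deriv d.Φ v = 2 * θ * Real.exp v := by
    rw [← ev, mul_assoc, mul_comm (Real.exp (-v)), e0, mul_one]
  have w1 : Real.exp 2 * q.ν₁ * Real.exp v ≤ deriv d.Φ v := by
    rw [ev']
    exact mul_le_mul_of_nonneg_right (by linarith) (Real.exp_pos v).le
  have w2 : Real.exp 2 * deriv d.Φ v ≤ q.nm * Real.exp v := by
    rw [ev', ← mul_assoc]
    exact mul_le_mul_of_nonneg_right t2 (Real.exp_pos v).le
  have key : ∀ f : ℝ, |f - 1| ≤ 1 → Win d f v → False := by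
    intro f hf W
    have k1 := W.k1 a (by linarith)
    have k2 : deriv d.Φ a * Real.exp (-a) = 2 * θ * Real.exp ((f - 1) * (a - v)) := by
      rw [k1, ev']
      have : (f - 1) * (a - v) = v + f * (a - v) + -a := by ring
      rw [this, Real.exp_add, Real.exp_add]
      ring
    have k3 : -(1 / 4) ≤ (f - 1) * (a - v) := by
      have : |(f - 1) * (a - v)| ≤ 1 * (1 / 4) := by
        rw [abs_mul]
        exact mul_le_mul hf hva (abs_nonneg _) (by norm_num)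
      have := (abs_le.1 this).1
      linarith
    have k4 : 3 / 4 ≤ Real.exp ((f - 1) * (a - v)) := by
      have := Real.add_one_le_exp ((f - 1) * (a - v))
      linarith
    rw [k2] at ra
    nlinarith
  rcases h.win w h0 h1 hv2 w1 w2 with ⟨-, -, W⟩ | ⟨-, -, W⟩
  · exact key _ (by norm_num [abs_le]) W
  · exact key _ (by norm_num) W

end ratio

/-! ## The constants -/

/-- The constants. -/
structure DN (q : Cst) : Prop where
  g : GC q
  w : WC q
  c0 : 0 < q.c₀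
  c1 : q.c₀ ≤ 1 / 1000
  aC : 0 < q.aC ∧ q.aC ≤ 1 / 2
  a : 400 * q.c₀ ≤ q.aC
  cK : 0 < q.cK
  k : 40 * q.c₀ ≤ q.cK
  ν : 100 * q.ν₁ ≤ q.c₀
  nm : 1 ≤ q.nm
  M : 10 ≤ q.M₀ * q.c₀
  C : 0 < q.CB
  e : 0 < q.ηc
  B : 2 * q.Λ < q.c₀ ^ 2 * √q.M₀

theorem evDN : EvC DN := by
  have h1 : EvC fun q => q.c₀ ≤ 1 / 1000 :=
    EvC.at_c₀ (fun _ t => t ≤ 1 / 1000) fun _ => sml_le (by norm_num)
  have h2 : EvC fun q => q.aC ≤ 1 / 2 :=
    EvC.at_aC (fun _ t => t ≤ 1 / 2) fun _ => sml_le (by norm_num)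
  have h3 : EvC fun q => 0 < q.aC → 400 * q.c₀ ≤ q.aC :=
    EvC.at_c₀ (fun q t => 0 < q.aC → 400 * t ≤ q.aC) fun q => by
      by_cases h : 0 < q.aC
      · exact (sml_le (a := q.aC / 400) (by positivity)).mono fun t h1 _ => by linarith
      · exact Eventually.of_forall fun _ h1 => absurd h1 h
  have h4 : EvC fun q => 0 < q.cK → 40 * q.c₀ ≤ q.cK :=
    EvC.at_c₀ (fun q t => 0 < q.cK → 40 * t ≤ q.cK) fun q => by
      by_cases h : 0 < q.cK
      · exact (sml_le (a := q.cK / 40) (by positivity)).mono fun t h1 _ => by linarith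
      · exact Eventually.of_forall fun _ h1 => absurd h1 h
  have h5 : EvC fun q => 0 < q.c₀ → 100 * q.ν₁ ≤ q.c₀ :=
    EvC.at_ν₁ (fun q t => 0 < q.c₀ → 100 * t ≤ q.c₀) fun q => by
      by_cases h : 0 < q.c₀
      · exact (sml_le (a := q.c₀ / 100) (by positivity)).mono fun t h1 _ => by linarith
      · exact Eventually.of_forall fun _ h1 => absurd h1 h
  have h6 : EvC fun q => 0 < q.c₀ → 10 ≤ q.M₀ * q.c₀ :=
    EvC.at_M₀ (fun q t => 0 < q.c₀ → 10 ≤ t * q.c₀) fun q => by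
      by_cases h : 0 < q.c₀
      · refine ev_top (10 / q.c₀) fun t ht _ => ?_
        rwa [div_le_iff₀ h] at ht
      · exact Eventually.of_forall fun _ h1 => absurd h1 h
  have h7 : EvC fun q => 0 < q.c₀ → 2 * q.Λ < q.c₀ ^ 2 * √q.M₀ :=
    EvC.at_M₀ (fun q t => 0 < q.c₀ → 2 * q.Λ < q.c₀ ^ 2 * √t) fun q => by
      by_cases h : 0 < q.c₀
      · have hL : 0 ≤ q.Λ := (Real.exp_pos _).le
        refine ev_top ((2 * q.Λ / q.c₀ ^ 2 + 1) ^ 2) fun t ht _ => ?_
        have h1 := Real.sqrt_le_sqrt ht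
        rw [Real.sqrt_sq (by positivity)] at h1
        have h2 : 2 * q.Λ / q.c₀ ^ 2 < √t := by linarith
        rw [div_lt_iff₀ (by positivity)] at h2
        linarith
      · exact Eventually.of_forall fun _ h1 => absurd h1 h
  refine (((evG.and EvC.wc).and (h1.and (h2.and h3))).and ((h4.and (h5.and h6)).and
    (h7.and EvC.pos))).mono ?_
  rintro q ⟨⟨⟨g, w⟩, b1, b2, b3⟩, ⟨b4, b5, b6⟩, b7, ⟨a1, a2, a3, a4, a5, a6, a7, a8, a9, a10⟩, -⟩
  exact ⟨g, w, a6, b1, ⟨a5, b2⟩, b3 a5, a4, b4 a4, b5 a6, a3, b6 a6, by linarith, a9,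
    b7 a6⟩

/-! ## The numbers of the tubes near the diagonal -/

section geo

variable {q : Cst} {d : Pk n} {z : VV n} {k j : Zo}

/-- The distance forms. -/
def MQ (d : Pk n) (z : VV n) : Prop :=
  1 / 2 * qq z ≤ 2 * rq (gi d.s₁) z ∧ 2 * rq (gi d.s₁) z ≤ 2 * qq z

/-- The tube at a point where a tube leaf is alive. -/
theorem tb_T (D : DN q) (h : PkOk q d) (hk : k = .T1 ∨ k = .T2) (hkz : d.ch q k z ≠ 0)
    (h0 : 0 < rr z) (h1 : rr z ≤ 2 * q.p₁) : Tb q d z q.rT := by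
  have hG := D.g
  have hNG := NG_pos hG h z
  have hi : ¬Inf k := by rcases hk with rfl | rfl <;> (unfold Inf; decide)
  have hn := sd_near hkz hi hG.inf.κ0 hG.inf.κ1 (lvG hG.inf h)
  have hT := hG.rT0
  have ht : q.rT ≤ 1 / 20 := by linarith [hG.rT1]
  rcases hk with rfl | rfl
  · have h2 := sd_T1 hT hNG hkz
    rw [sq_gx] at h2
    exact tb_x hG h hn h0 h1 ht ((sq_le_sq₀ (en_nn _) (by positivity)).1 h2.le)
  · have h2 := sd_T2 hT hNG hkz
    rw [sq_gy] at h2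
    exact tb_y hG h hn h0 h1 ht ((sq_le_sq₀ (en_nn _) (by positivity)).1 h2.le)

/-- `|x - y|` where a near leaf and a leaf off the diagonal are alive. -/
theorem rr_bd (D : DN q) (hP : (d.cp q).Ok) (m : MQ d z) (hk : Off k) (hkz : d.ch q k z ≠ 0)
    (hj : Near j) (hjz : d.ch q j z ≠ 0) : 7 / 10 * q.c₀ ≤ rr z ∧ rr z ≤ 3 * q.c₀ := by
  have a1 : 2 * rq (gi d.s₁) z ≤ 4 * q.c₀ ^ 2 := sd_r hjz hj hP
  have a2 : q.c₀ ^ 2 ≤ 2 * rq (gi d.s₁) z := sd_off hkz hk hP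
  have e := rr_sq z
  have hr := rr_nn z
  have hc := D.c0
  obtain ⟨m1, m2⟩ := m
  constructor
  · refine (sq_le_sq₀ (by positivity) hr).1 ?_
    rw [e]
    nlinarith
  · refine (sq_le_sq₀ hr (by positivity)).1 ?_
    rw [e]
    nlinarith

/-- The ratio at the flat level. -/
theorem N_bd (D : DN q) (h : PkOk q d) (hT : Tb q d z q.rT) (h0 : 7 / 10 * q.c₀ ≤ rr z)
    (h1 : rr z ≤ 3 * q.c₀) :
    2 / 5 * rr z * Real.exp (d.u0 z) ≤ deriv d.Φ (d.u0 z) ∧
      deriv d.Φ (d.u0 z) ≤ 9 * rr z * Real.exp (d.u0 z) := by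
  have hG := D.g
  have hc := D.c0
  have hc1 := D.c1
  have r0 : 0 < rr z := by linarith
  have r1 : rr z ≤ 3 / 1000 := by linarith
  have hNG := NG_pos hG h z
  have hE := Real.exp_pos (d.u0 z)
  have hpn := H606.EP.pn_ok hG.rad.e0 (s := rr z ^ 2) (by positivity) (by nlinarith)
  have e1 : 2 * rr z * H606.EP.prS₁ q.e₁ (rr z ^ 2) = prL q.e₁ (rr z) * prS q.e₁ (rr z ^ 2) :=
    hG.rad.pp.Ph1_L r0
  have e2 : prL q.e₁ (rr z) * d.G0 q z =
      2 * rr z * H606.EP.prS₁ q.e₁ (rr z ^ 2) * Real.exp (d.u0 z) := by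
    rw [e1]
    unfold Pk.G0
    rw [← rr_sq]
    ring
  have l1 : rr z * Real.exp (d.u0 z) ≤ prL q.e₁ (rr z) * d.G0 q z := by
    rw [e2]
    refine mul_le_mul_of_nonneg_right ?_ hE.le
    nlinarith [hpn.l1]
  have l2 : prL q.e₁ (rr z) * d.G0 q z ≤ 8 * rr z * Real.exp (d.u0 z) := by
    rw [e2]
    refine mul_le_mul_of_nonneg_right ?_ hE.le
    nlinarith [hpn.b1]
  have hL : 2 ≤ prL q.e₁ (rr z) := by
    have e3 := hG.rad.pp.Lf_eq r0 (by unfold rp; linarith)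
    have e4 := H644.le_Lz (θ := 2) (by norm_num) r0
    have e5 : prL q.e₁ (rr z) = H644.Lz 2 (rr z) := e3
    rw [e5]
    exact e4
  have hG0 := PkOk.G0_nonneg (d := d) hG.rad z
  have l3 : 2 * d.G0 q z ≤ prL q.e₁ (rr z) * d.G0 q z := mul_le_mul_of_nonneg_right hL hG0
  have lo := hT.lo
  have up := hT.up
  have hrT := hG.rT1
  have hrT0 := hG.rT0
  have hσ := hG.inf.σ1
  have hσ0 := hG.inf.σ0
  have eN : d.NG q z = deriv d.Φ (d.u0 z) + d.G0 q z := rfl
  have lo' : 99 / 100 * d.NG q z ≤ prL q.e₁ (rr z) * d.G0 q z := by nlinarith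
  have up' : prL q.e₁ (rr z) * d.G0 q z ≤ 101 / 100 * d.NG q z := by nlinarith
  constructor
  · linarith
  · have : 0 ≤ rr z * Real.exp (d.u0 z) := by positivity
    linarith

/-- The numbers at the level `u`. -/
structure UN (q : Cst) (d : Pk n) (z : VV n) : Prop where
  r0 : 7 / 10 * q.c₀ ≤ rr z
  r1 : rr z ≤ 3 * q.c₀
  u : d.u q z ≤ 2 * d.l₀ q + 93 / 20 * q.R + 1
  lo : 1 / 5 * rr z * d.E q z < d.N q z
  up : d.N q z < 18 * rr z * d.E q z

theorem exp2_le : Real.exp 2 ≤ 37 / 5 := by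
  have h3 := Real.exp_one_lt_d9
  have h4 : Real.exp 2 = Real.exp 1 * Real.exp 1 := by rw [← Real.exp_add]; norm_num
  have h5 := Real.exp_pos 1
  rw [h4]
  nlinarith

theorem l₀_R (D : DN q) (h : PkOk q d) : d.l₀ q ≤ 1 / 100 * q.R := by
  have h1 := H404.INF.l₀_le D.g.inf h
  have h2 := D.g.inf.η1
  have h3 := D.g.inf.R1
  have h4 : 2 * q.η * q.R ≤ 2 * (1 / 200) * q.R :=
    mul_le_mul_of_nonneg_right (by linarith) (by linarith)
  linarith

theorem un_of (D : DN q) (h : PkOk q d) (hP : (d.cp q).Ok) (m : MQ d z)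
    (hk : k = .T1 ∨ k = .T2) (hkz : d.ch q k z ≠ 0) (hj : Near j) (hjz : d.ch q j z ≠ 0) :
    UN q d z := by
  have hG := D.g
  have hi : ¬Inf k := by rcases hk with rfl | rfl <;> (unfold Inf; decide)
  have ho : Off k := by rcases hk with rfl | rfl <;> (unfold Off; decide)
  obtain ⟨r1, r2⟩ := rr_bd D hP m ho hkz hj hjz
  have hc := D.c0
  have hc1 := D.c1
  have hp := Cst.p₁_ge hG.rad
  have hT := tb_T D h hk hkz (by linarith) (by linarith)
  obtain ⟨n1, n2⟩ := N_bd D h hT r1 r2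
  have hl := l₀_R D h
  have hl0 := H404.INF.l₀_nonneg hG.inf h
  have hR : 0 < q.R := by linarith [hG.inf.R1]
  have hu0 := (sd_fin hkz hi hG.inf.κ0 hG.inf.σ0 hR).2.2
  have huu := H871.E.u_u0 h z
  have huu' := abs_le.1 huu
  have hu : d.u q z ≤ 2 * d.l₀ q + 93 / 20 * q.R + 1 := by linarith
  have he := exp2_le
  have he0 := Real.exp_pos 2
  have hν := D.ν
  have hν0 := D.w.ν₁
  have hnm := D.nm
  refine ⟨r1, r2, hu, ?_, ?_⟩
  · by_contra hc'
    rw [not_lt] at hc'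
    have h3 := ratio h D.w hl0 hl (a := d.u q z) (b := d.u0 z) (θ := 1 / 5 * rr z) hu
      (by linarith) huu (by nlinarith) (by nlinarith) hc'
    have : 2 * (1 / 5 * rr z) * Real.exp (d.u0 z) = 2 / 5 * rr z * Real.exp (d.u0 z) := by ring
    linarith
  · have h3 := ratio h D.w hl0 hl (a := d.u0 z) (b := d.u q z) (θ := 9 * rr z) (by linarith)
      hu (by rwa [abs_sub_comm]) (by nlinarith) (by nlinarith) n2
    have e : 2 * (9 * rr z) * Real.exp (d.u q z) = 18 * rr z * d.E q z := by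
      unfold Pk.E
      ring
    rw [e] at h3
    exact h3

variable (D : DN q) (h : PkOk q d) (hP : (d.cp q).Ok) (m : MQ d z)
include D h hP m

/-- `z0` and the tubes. -/
theorem no_z0_T (hk : k = .T1 ∨ k = .T2) (hkz : d.ch q k z ≠ 0) (hj : d.ch q .z0 z ≠ 0) :
    False := by
  have hu := un_of D h hP m hk hkz (j := .z0) (by unfold Near; decide) hj
  have hN : 0 < d.N q z := h.N_pos D.g.M1 _
  have h1 := sd_z0 hj hP D.aC.1 hN
  have hE : 0 < d.E q z := Real.exp_pos _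
  have h2 := hu.up
  have h3 := D.a
  have h4 : 18 * rr z * d.E q z ≤ 54 * q.c₀ * d.E q z :=
    mul_le_mul_of_nonneg_right (by linarith [hu.r1]) hE.le
  have h5 : 400 * q.c₀ * d.E q z ≤ q.aC * d.E q z := mul_le_mul_of_nonneg_right h3 hE.le
  have h6 : 0 < q.c₀ * d.E q z := mul_pos D.c0 hE
  linarith

/-- `z2a` and the tubes. -/
theorem no_z2a_T (hk : k = .T1 ∨ k = .T2) (hkz : d.ch q k z ≠ 0) (hj : d.ch q .z2a z ≠ 0) :
    False := by
  have hG := D.g
  have hu := un_of D h hP m hk hkz (j := .z2a) (by unfold Near; decide) hj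
  have hN : 0 < d.N q z := h.N_pos D.g.M1 _
  have hE : 0 < d.E q z := Real.exp_pos _
  have h1 := sd_z2a hj hP
  have hr2 : d.r2 z ≤ 4 * q.c₀ ^ 2 := sd_r hj (by unfold Near; decide) hP
  have hl := l₀_R D h
  have hl0 := H404.INF.l₀_nonneg hG.inf h
  have he := exp2_le
  have he0 := Real.exp_pos 2
  have hν := D.ν
  have hν0 := D.w.ν₁
  have hnm := D.nm
  have hc := D.c0
  have hc1 := D.c1
  have lo := hu.lo
  have up := hu.up
  have u1 := hu.r0
  have u2 := hu.r1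
  have w1 : Real.exp 2 * q.ν₁ * Real.exp (d.u q z) ≤ deriv d.Φ (d.u q z) := by
    have a1 : Real.exp 2 * q.ν₁ ≤ 1 / 5 * rr z := by nlinarith
    exact (mul_le_mul_of_nonneg_right a1 (Real.exp_pos _).le).trans lo.le
  have w2 : Real.exp 2 * deriv d.Φ (d.u q z) ≤ q.nm * Real.exp (d.u q z) := by
    have a1 : Real.exp 2 * deriv d.Φ (d.u q z) ≤ Real.exp 2 * (18 * rr z * d.E q z) :=
      mul_le_mul_of_nonneg_left up.le he0.le
    have a2 : Real.exp 2 * (18 * rr z * d.E q z) ≤ q.nm * d.E q z := by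
      have a3 : Real.exp 2 * (18 * rr z) ≤ q.nm := by nlinarith
      calc Real.exp 2 * (18 * rr z * d.E q z) = Real.exp 2 * (18 * rr z) * d.E q z := by ring
        _ ≤ _ := mul_le_mul_of_nonneg_right a3 hE.le
    exact a1.trans a2
  have hK : 9 / 10 * d.N q z ≤ d.Kf q z := by
    rcases h.win D.w hl0 hl hu.u w1 w2 with ⟨-, -, W⟩ | ⟨-, -, W⟩
    · have := W.k2 (d.u q z) (by simp)
      show 9 / 10 * deriv d.Φ (d.u q z) ≤ deriv (deriv d.Φ) (d.u q z)
      rw [this]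
    · have := W.k2 (d.u q z) (by simp)
      show 9 / 10 * deriv d.Φ (d.u q z) ≤ deriv (deriv d.Φ) (d.u q z)
      rw [this]
      have : 0 < deriv d.Φ (d.u q z) := hN
      linarith
  have hm : d.m q z ≤ 4 * q.c₀ ^ 2 * d.E q z := by
    unfold Pk.m
    rw [mul_comm]
    exact mul_le_mul_of_nonneg_right hr2 hE.le
  have b1 : 7 / 50 * q.c₀ * d.E q z ≤ d.N q z := by
    have : 7 / 50 * q.c₀ * d.E q z ≤ 1 / 5 * rr z * d.E q z :=
      mul_le_mul_of_nonneg_right (by linarith) hE.le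
    linarith
  have b2 : q.cK * (9 / 10 * (7 / 50 * q.c₀ * d.E q z)) ≤ 4 * q.c₀ ^ 2 * d.E q z := by
    refine le_trans ?_ (h1.trans hm)
    exact mul_le_mul_of_nonneg_left (by linarith) D.cK.le
  have b3 : 0 < q.c₀ * d.E q z := mul_pos hc hE
  have b4 : q.cK * (9 / 10 * (7 / 50)) ≤ 4 * q.c₀ := by
    by_contra hcc
    rw [not_le] at hcc
    have := mul_lt_mul_of_pos_right hcc b3
    nlinarith
  linarith [D.k]

/-- `z2b`, `zB` and the tubes. -/
theorem no_B_T (hk : k = .T1 ∨ k = .T2) (hkz : d.ch q k z ≠ 0) (hjj : j = .zB ∨ j = .z2b)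
    (hj : d.ch q j z ≠ 0) : False := by
  have hu := un_of D h hP m hk hkz (j := j) (by unfold Near; tauto) hj
  have hN : 0 < d.N q z := h.N_pos D.g.M1 _
  have hNM : q.M₀ ≤ d.N q z := h.N_ge _
  have hN1 : 1 ≤ d.N q z := D.g.M1.trans hNM
  have hE : 0 < d.E q z := Real.exp_pos _
  have h1 := sd_B hj hjj hP hN
  have h2 : d.N q z ^ 2 ≤ d.N q z ^ (13 / 5 : ℝ) := by
    rw [← Real.rpow_natCast]
    exact Real.rpow_le_rpow_of_exponent_le hN1 (by norm_num)
  have hc := D.c0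
  have u1 := hu.r0
  have lo := hu.lo
  have b1 : 7 / 50 * q.c₀ * d.E q z ≤ d.N q z := by
    have : 7 / 50 * q.c₀ * d.E q z ≤ 1 / 5 * rr z * d.E q z :=
      mul_le_mul_of_nonneg_right (by linarith) hE.le
    linarith
  have b2 : 7 / 50 * q.c₀ * d.N q z ^ 2 ≤ d.N q z := by
    refine le_trans ?_ b1
    exact mul_le_mul_of_nonneg_left (h2.trans h1) (by positivity)
  have b3 : 7 / 50 * q.c₀ * d.N q z ≤ 1 := by
    by_contra hcc
    rw [not_le] at hcc
    have := mul_lt_mul_of_pos_right hcc hN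
    nlinarith
  have b4 := D.M
  have b5 : q.M₀ * q.c₀ ≤ d.N q z * q.c₀ := mul_le_mul_of_nonneg_right hNM hc.le
  linarith

omit m in
/-- `zB` and the leaves off the diagonal. -/
theorem no_zB_off (hk : Off k) (hkz : d.ch q k z ≠ 0) (hj : d.ch q .zB z ≠ 0) : False := by
  have hN : 0 < d.N q z := h.N_pos D.g.M1 _
  have hNM : q.M₀ ≤ d.N q z := h.N_ge _
  have hN1 : 1 ≤ d.N q z := D.g.M1.trans hNM
  have hE : 0 < d.E q z := Real.exp_pos _
  have h1 := sd_B hj (Or.inl rfl) hP hN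
  have h2 : d.N q z ≤ d.N q z ^ (13 / 5 : ℝ) := by
    have := Real.rpow_le_rpow_of_exponent_le hN1 (by norm_num : (1 : ℝ) ≤ 13 / 5)
    rwa [Real.rpow_one] at this
  have hEM : q.M₀ ≤ d.E q z := hNM.trans (h2.trans h1)
  have a2 : q.c₀ ^ 2 ≤ d.r2 z := sd_off hkz hk hP
  have hr0 : 0 ≤ rq (gi d.s₁) z := by
    have : q.c₀ ^ 2 ≤ 2 * rq (gi d.s₁) z := a2
    nlinarith [sq_nonneg q.c₀]
  have h3 := sd_zB hj hP hr0
  have hR : 0 < q.R := by linarith [D.g.inf.R1]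
  have hcc : 0 ≤ q.σ / (q.CB * q.R) := div_nonneg D.g.inf.σ0.le (mul_pos D.C hR).le
  have h4 : d.m₁ q (d.u q z) ≤ Real.exp (26 / 100 * d.u q z) := by
    unfold Pk.m₁ H932.EP.m1x
    have k1 : Real.exp (-(26 / 100 * d.u q z)) ≤ Real.exp (-(26 / 100 * d.u q z)) +
        q.σ / (q.CB * q.R) * d.ξ q (d.u q z) :=
      le_add_of_nonneg_right (mul_nonneg hcc ((d.ξ_is q).pos _).le)
    refine (inv_anti₀ (Real.exp_pos _) k1).trans (le_of_eq ?_)
    rw [Real.exp_neg, inv_inv]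
  have hu1 : 0 ≤ d.u q z := by
    have : 1 ≤ Real.exp (d.u q z) := D.g.M1.trans hEM
    exact Real.one_le_exp_iff.1 this
  have h5 : √q.M₀ ≤ Real.exp (74 / 100 * d.u q z) := by
    have h6 : √q.M₀ ≤ √(d.E q z) := Real.sqrt_le_sqrt hEM
    have h7 : √(d.E q z) = Real.exp (d.u q z / 2) := (Real.exp_half _).symm
    rw [h7] at h6
    exact h6.trans (Real.exp_le_exp.2 (by linarith))
  have hL : 0 < q.Λ := Real.exp_pos _
  have h8 : q.c₀ ^ 2 * d.E q z ≤ 2 * q.Λ * Real.exp (26 / 100 * d.u q z) := by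
    calc q.c₀ ^ 2 * d.E q z ≤ d.r2 z * d.E q z := mul_le_mul_of_nonneg_right a2 hE.le
      _ = d.m q z := mul_comm _ _
      _ ≤ 2 * q.Λ * d.m₁ q (d.u q z) := h3
      _ ≤ _ := mul_le_mul_of_nonneg_left h4 (by positivity)
  have e1 : d.E q z = Real.exp (74 / 100 * d.u q z) * Real.exp (26 / 100 * d.u q z) := by
    rw [← Real.exp_add]
    show Real.exp (d.u q z) = _
    congr 1
    ring
  rw [e1, ← mul_assoc] at h8
  have h9 := le_of_mul_le_mul_right h8 (Real.exp_pos _)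
  have h10 := mul_le_mul_of_nonneg_left h5 (sq_nonneg q.c₀)
  linarith [D.B]

end geo

/-! ## The dead pairs -/

theorem evMQ (n : ℕ) : EvC fun q => ∀ d : Pk n, PkOk q d → ∀ z, MQ d z :=
  (EvC.rq n).mono fun _ h d ok z => ((h d ok).2 z).2

theorem dead_z0_T {k : Zo} (hk : k = .T1 ∨ k = .T2) : Dead n .z0 k :=
  ((evDN.and (EvC.cpOk n)).and (evMQ n)).mono fun _ h d ok z _ hj hkz =>
    no_z0_T h.1.1 ok (h.1.2 d ok) (h.2 d ok z) hk hkz hj

theorem dead_z2a_T {k : Zo} (hk : k = .T1 ∨ k = .T2) : Dead n .z2a k :=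
  ((evDN.and (EvC.cpOk n)).and (evMQ n)).mono fun _ h d ok z _ hj hkz =>
    no_z2a_T h.1.1 ok (h.1.2 d ok) (h.2 d ok z) hk hkz hj

theorem dead_B_T {j k : Zo} (hj : j = .zB ∨ j = .z2b) (hk : k = .T1 ∨ k = .T2) : Dead n j k :=
  ((evDN.and (EvC.cpOk n)).and (evMQ n)).mono fun _ h d ok z _ hjz hkz =>
    no_B_T h.1.1 ok (h.1.2 d ok) (h.2 d ok z) hk hkz hj hjz

theorem dead_zB_off {k : Zo} (hk : Off k) : Dead n .zB k :=
  (evDN.and (EvC.cpOk n)).mono fun _ h d ok _ _ hjz hkz =>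
    no_zB_off h.1 ok (h.2 d ok) hk hkz hjz

end Vale.Agent.P088.R2.H844.E
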